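import Vale.Agent.P176.Pd

/-! # P176: a finite-dimensional algebra with infinite little finitistic dimension -/

open CategoryTheory

namespace Vale.Agent.Results.P176.FindimInfinite

/-- Over `ℂ` there is a finite-dimensional algebra with finitely generated modules of finite but
arbitrarily large projective dimension. -/
theorem result :
    ∃ (A : Type) (_ : Ring A) (_ : Algebra ℂ A), Module.Finite ℂ A ∧
      ∀ N : ℕ, ∃ Z : ModuleCat.{0} A, Module.Finite A Z ∧
        (∃ d : ℕ, HasProjectiveDimensionLT Z d) ∧ ¬ HasProjectiveDimensionLT Z N := by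
  refine ⟨Vale.Agent.P176.Alg, inferInstance, inferInstance, inferInstance, fun N => ?_⟩
  refine ⟨ModuleCat.of _ (Vale.Agent.P176.Ym N), Vale.Agent.P176.ym_finite N,
    ⟨5 + 2 * N, (Vale.Agent.P176.pd_Ym N).1⟩, fun h => ?_⟩
  exact (Vale.Agent.P176.pd_Ym N).2 (Vale.Agent.P176.PD.mono h (by omega))

end Vale.Agent.Results.P176.FindimInfinite
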